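import Vale.Agent.P011N.Cl.LH.Main
import Vale.Agent.P011N.Cl.TC.Act

/-!
Hermitian forms over the totally imaginary field.
-/

namespace Vale.Agent.P011N.Cl.B2

open Matrix

variable {F : Type} [Field F] [NumberField F] {Γ : Subgroup (Gl F)} {r σ θ : Gl F} {d q e : F}
  {u : M3 F}

theorem σσ (h : OSet Γ r σ θ d q e u) (x : F) : σ (σ x) = x := by
  rw [← AlgEquiv.mul_apply, h.σ2, AlgEquiv.one_apply]

theorem rσ (h : OSet Γ r σ θ d q e u) (x : F) : r (σ x) = σ (r x) := by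
  rw [← AlgEquiv.mul_apply, h.rσ, AlgEquiv.mul_apply]

theorem σq_ne (h : OSet Γ r σ θ d q e u) : σ q ≠ q := fun k =>
  h.q0 (by linear_combination (-1 / 2 : F) * k + (1 / 2 : F) * h.σq)

theorem no_place (h : OSet Γ r σ θ d q e u) (w : F →+* ℂ) :
    ¬ ∀ x, r x = x → w (σ x) = star (w x) := fun hw => by
  have h1 : ∀ x, r x = x → σ x = x → (w x).im = 0 := fun x k1 k2 => by
    have k3 := congrArg Complex.im (hw x k1)
    rw [k2, Complex.star_def, Complex.conj_im] at k3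
    linarith
  have h2 := h.neg w fun x hx =>
    h1 x (hx r ((h.gen r).2 ⟨1, 0, 0, by simp⟩)) (hx σ ((h.gen σ).2 ⟨0, 1, 0, by simp⟩))
  rw [map_pow, sq, Complex.mul_re, h1 d h.rd h.σd, mul_zero, sub_zero] at h2
  exact absurd h2 (not_lt.2 (mul_self_nonneg _))

theorem fx_zpowers {x : F} : Fx (Subgroup.zpowers r) x ↔ r x = x :=
  ⟨fun h => h r (Subgroup.mem_zpowers r), fun h _ hγ =>
    (Subgroup.zpowers_le_of_mem (H := MulAction.stabilizer (Gl F) x) h) hγ⟩

/-- (L1) A hyperbolic basis. -/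
theorem hyp (h : OSet Γ r σ θ d q e u) {a : M3 F} (h0 : a.det ≠ 0) (h1 : aᵀ = a.map σ)
    (h2 : a.map r = a) : ∃ R : M3 F, R.det = 1 ∧ R.map r = R ∧
      R * a * (R.map σ)ᵀ = !![0, 1, 0; 1, 0, 0; 0, 0, -a.det] := by
  have e1 : ∀ i j, σ (a i j) = a j i := fun i j => (congrFun (congrFun h1 i) j).symm
  have e2 : ∀ i j, r (a i j) = a i j := fun i j => congrFun (congrFun h2 i) j
  obtain ⟨v, v0, v1, v2⟩ := LH.hiStmt F (Subgroup.zpowers r) σ
    (fun x hx => ⟨fx_zpowers.2 (by rw [rσ h, fx_zpowers.1 hx]), σσ h x⟩)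
    ⟨q, fx_zpowers.2 h.rq, σq_ne h⟩ a (fun i j => fx_zpowers.2 (e2 i j)) h1
    fun w hw => absurd (fun x hx => hw x (fx_zpowers.2 hx)) (no_place h w)
  replace v1 := fun i => fx_zpowers.1 (v1 i)
  let H : (Fin 3 → F) → (Fin 3 → F) → F := fun x y => x ⬝ᵥ (a *ᵥ fun i => σ (y i))
  have s1 : ∀ x y, σ (H x y) = H y x := fun x y => by
    simp only [H, dotProduct, mulVec, Fin.sum_univ_three, map_add, map_mul, e1, σσ h]
    ring
  have s2 : ∀ y : Fin 3 → F, (∀ i, r (y i) = y i) → ∀ i,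
      r ((a *ᵥ fun i => σ (y i)) i) = (a *ᵥ fun i => σ (y i)) i := fun y hy i => by
    simp only [dotProduct, mulVec, Fin.sum_univ_three, map_add, map_mul, e2, rσ h, hy]
  obtain ⟨i, hi⟩ : ∃ i, (a *ᵥ fun i => σ (v i)) i ≠ 0 := by
    by_contra k
    push Not at k
    refine v0 (funext fun i => σ.injective ?_)
    rw [Pi.zero_apply, map_zero]
    exact congrFun (Matrix.eq_zero_of_mulVec_eq_zero h0 (funext k)) i
  obtain ⟨x, x1, x2⟩ : ∃ x : Fin 3 → F, (∀ i, r (x i) = x i) ∧ H x v = 1 :=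
    ⟨Pi.single i ((a *ᵥ fun i => σ (v i)) i)⁻¹, fun j => by
      rw [Pi.single_apply, apply_ite r, map_inv₀, s2 v v1, map_zero], by
      simp only [H, single_dotProduct, inv_mul_cancel₀ hi]⟩
  have x3 : H v x = 1 := by rw [← s1, x2, map_one]
  obtain ⟨y, y1, y2, y3⟩ : ∃ y : Fin 3 → F, (∀ i, r (y i) = y i) ∧ H y v = 1 ∧ H y y = 0 := by
    have k1 : r (H x x) = H x x := by
      simp only [H, dotProduct, Fin.sum_univ_three, map_add, map_mul, x1, s2 x x1]
    refine ⟨fun i => x i - H x x / 2 * v i, fun i => by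
      simp only [map_sub, map_mul, map_div₀, map_ofNat, k1, x1, v1], ?_, ?_⟩
    · simp only [H, dotProduct, Fin.sum_univ_three] at x2 v2 ⊢
      linear_combination x2 - (x 0 * (a *ᵥ fun i => σ (x i)) 0 + x 1 * (a *ᵥ fun i => σ (x i)) 1 +
        x 2 * (a *ᵥ fun i => σ (x i)) 2) / 2 * v2
    · have k2 := s1 x x
      have k3 : H x x = x ⬝ᵥ (a *ᵥ fun i => σ (x i)) := rfl
      generalize H x x = c at k2 k3
      simp only [H, dotProduct, mulVec, Fin.sum_univ_three, map_sub, map_mul, map_div₀,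
        map_ofNat, k2] at x2 x3 v2 k3 ⊢
      linear_combination -k3 - c / 2 * x2 - c / 2 * x3 + c * c / 4 * v2
  have y4 : H v y = 1 := by rw [← s1, y2, map_one]
  obtain ⟨z, z1, z2, z3, z4⟩ : ∃ z : Fin 3 → F, (∀ i, r (z i) = z i) ∧ H z v = 0 ∧ H z y = 0 ∧
      (of ![v, y, z]).det = 1 := by
    refine ⟨(a *ᵥ fun i => σ (y i)) ⨯₃ (a *ᵥ fun i => σ (v i)), fun i => ?_, ?_, ?_, ?_⟩
    · fin_cases i <;> simp [cross_apply, s2 v v1, s2 y y1]
    · simp only [H]
      rw [dotProduct_comm, dot_cross_self]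
    · simp only [H]
      rw [dotProduct_comm, dot_self_cross]
    · simp only [H, dotProduct, Fin.sum_univ_three] at y2 y3 y4 v2
      simp only [det_fin_three, cross_apply, of_apply, cons_val]
      linear_combination (v 0 * (a *ᵥ fun i => σ (y i)) 0 + v 1 * (a *ᵥ fun i => σ (y i)) 1 +
        v 2 * (a *ᵥ fun i => σ (y i)) 2) * y2 + y4 - (v 0 * (a *ᵥ fun i => σ (v i)) 0 +
        v 1 * (a *ᵥ fun i => σ (v i)) 1 + v 2 * (a *ᵥ fun i => σ (v i)) 2) * y3
  have z5 : H v z = 0 := by rw [← s1, z2, map_zero]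
  have z6 : H y z = 0 := by rw [← s1, z3, map_zero]
  have t1 : of ![v, y, z] * a * ((of ![v, y, z]).map σ)ᵀ = !![0, 1, 0; 1, 0, 0; 0, 0, H z z] := by
    have k : ∀ i j, (of ![v, y, z] * a * ((of ![v, y, z]).map σ)ᵀ) i j =
        H (![v, y, z] i) (![v, y, z] j) := fun i j => by
      simp only [H, Matrix.mul_apply, Fin.sum_univ_three, transpose_apply, map_apply, of_apply,
        dotProduct, mulVec]
      ring
    have v3 : H v v = 0 := v2
    ext i j
    rw [k]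
    fin_cases i <;> fin_cases j <;> simp [v3, y2, y3, y4, z2, z3, z5, z6]
  have t2 := congrArg det t1
  rw [det_mul, det_mul, det_transpose, m3_det_map, z4, map_one, one_mul, mul_one] at t2
  refine ⟨_, z4, Matrix.ext fun i j => ?_, ?_⟩
  · fin_cases i
    exacts [v1 j, y1 j, z1 j]
  · rw [t1, t2]
    simp [det_fin_three]

/-- (L2) A Lagrangian graph. -/
theorem lag (h : OSet Γ r σ θ d q e u) {G₁ G₂ u₂ M₀ : M3 F} {lam t k : F} (d1 : G₁.det ≠ 0)
    (d2 : G₂.det ≠ 0) (s1 : G₁.map σ = lam • G₁ᵀ) (s2 : G₂.map σ = lam • G₂ᵀ)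
    (r1 : uᵀ * G₁ * u.map σ = t • G₁.map r) (r2 : u₂ᵀ * G₂ * u₂.map σ = t • G₂.map r)
    (d0 : M₀.det ≠ 0) (r0 : M₀ * u = u₂ * M₀.map r) (du : u₂.det = u.det)
    (dk : G₁.det = k ^ 2 * G₂.det) (rk : r k = k) (sk : σ k = k) :
    ∃ M : M3 F, M.det ≠ 0 ∧ M * u = u₂ * M.map r ∧ Mᵀ * G₂ * M.map σ = G₁ := by
  have mσ : ∀ X : M3 F, (X.map σ).map σ = X := fun X => Matrix.ext fun i j => σσ h _
  have mr : ∀ X : M3 F, (X.map σ).map r = (X.map r).map σ :=
    fun X => Matrix.ext fun i j => rσ h _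
  have sm : ∀ (γ : Gl F) (c : F) (X : M3 F), (c • X).map γ = γ c • X.map γ :=
    fun γ c X => Matrix.ext fun i j => map_mul γ _ _
  have cc : ∀ {X : M3 F} {c c' : F}, X.det ≠ 0 → c • X = c' • X → c = c' := fun hX k =>
    smul_left_injective F (by rintro rfl; exact hX (by simp)) k
  have l1 : σ lam * lam = 1 := cc d1 (by
    rw [one_smul, mul_smul]
    conv_rhs => rw [← mσ G₁, s1, sm, transpose_map, s1, transpose_smul, transpose_transpose])
  obtain ⟨s, s0, s3⟩ : ∃ s : F, s ≠ 0 ∧ σ s * lam = s := by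
    by_cases k : 1 + lam = 0
    · exact ⟨q, h.q0, by rw [h.σq]; linear_combination -q * k⟩
    · exact ⟨1 + lam, k, by rw [map_add, map_one]; linear_combination l1⟩
  have hu : u.det ≠ 0 := by
    rcases h.cyc with ⟨-, rfl⟩ | ⟨-, -, -, k, rfl⟩
    · simp
    · simpa [uu, det_fin_three, eq_comm] using k 0
  have hm : ∀ (γ : Gl F) {X : M3 F}, X.det ≠ 0 → (X.map γ).det ≠ 0 := fun γ X hX => by
    rw [m3_det_map]
    exact (_root_.map_ne_zero γ).2 hX
  have cg : ∀ {M : M3 F}, M * u = u₂ * M.map r →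
      uᵀ * (Mᵀ * G₂ * M.map σ) * u.map σ = t • (Mᵀ * G₂ * M.map σ).map r := fun {M} k => by
    calc _ = (M * u)ᵀ * G₂ * (M * u).map σ := by
          simp only [transpose_mul, Matrix.map_mul, Matrix.mul_assoc]
      _ = (M.map r)ᵀ * (u₂ᵀ * G₂ * u₂.map σ) * (M.map r).map σ := by
          simp only [k, transpose_mul, Matrix.map_mul, Matrix.mul_assoc]
      _ = _ := by
          simp only [r2, Matrix.map_mul, Matrix.mul_smul, Matrix.smul_mul, mr, transpose_map]
  have ch : ∀ M : M3 F, (Mᵀ * G₂ * M.map σ).map σ = lam • (Mᵀ * G₂ * M.map σ)ᵀ := fun M => by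
    simp only [Matrix.map_mul, s2, mσ, transpose_mul, transpose_transpose, transpose_map,
      Matrix.mul_smul, Matrix.smul_mul, Matrix.mul_assoc]
  have c1 : ∀ {X : M3 F}, X.map σ = lam • Xᵀ → (s • X)ᵀ = (s • X).map σ := fun k => by
    rw [sm, k, smul_smul, s3, transpose_smul]
  have c2 : ∀ {X : M3 F}, uᵀ * X * u.map σ = t • X.map r →
      ∃ t : F, uᵀ * (s • X) * u.map σ = t • (s • X).map r := fun k =>
    ⟨s * t / r s, by
      rw [Matrix.mul_smul, Matrix.smul_mul, k, sm, smul_smul, smul_smul,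
        div_mul_cancel₀ _ ((_root_.map_ne_zero r).2 s0)]⟩
  obtain ⟨z, μ, z0, z1, z2⟩ := LH.lhStmt F r σ e u (fun k => σq_ne h (by rw [k]; rfl)) h.σ2 h.rσ
    h.cyc (s • (M₀ᵀ * G₂ * M₀.map σ)) (s • G₁) (by simp [s0, d0, d2, hm σ d0]) (by simp [s0, d1])
    (c1 (ch M₀)) (c1 s1) (c2 (cg r0)) (c2 r1)
    fun w hw => absurd (fun x _ => hw x) (no_place h w)
  have m0 : (M₀ * z).det ≠ 0 := by simp [d0, z0]
  have m1 : M₀ * z * u = u₂ * (M₀ * z).map r := by
    rw [Matrix.mul_assoc, z1, ← Matrix.mul_assoc, r0, Matrix.map_mul, Matrix.mul_assoc]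
  have m2 : (M₀ * z)ᵀ * G₂ * (M₀ * z).map σ = μ • G₁ := smul_right_injective _ s0 (by
    simp only
    rw [smul_comm, ← z2]
    simp only [transpose_mul, Matrix.map_mul, Matrix.mul_assoc, Matrix.mul_smul, Matrix.smul_mul])
  generalize M₀ * z = M at m0 m1 m2
  have m3 := congrArg det m2
  rw [det_mul, det_mul, det_transpose, m3_det_map, det_smul, Fintype.card_fin, dk] at m3
  have m4 : M.det * σ M.det = μ ^ 3 * k ^ 2 := mul_right_cancel₀ d2 (by linear_combination m3)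
  have m5 := mul_ne_zero m0 ((_root_.map_ne_zero σ).2 m0)
  rw [m4] at m5
  have μ0 : μ ≠ 0 := fun k => m5 (by simp [k])
  have k0 : k ≠ 0 := fun k => m5 (by simp [k])
  have t0 : t ≠ 0 := by
    rintro rfl
    have k := congrArg det r1
    simp [hu, d1, hm σ hu] at k
  have μ1 : σ μ = μ := by
    have k := ch M
    rw [m2, sm, s1, transpose_smul, smul_smul, smul_smul] at k
    exact mul_right_cancel₀ (right_ne_zero_of_mul_eq_one l1)
      ((cc (by simpa using d1) k).trans (mul_comm _ _))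
  have μ2 : r μ = μ := by
    have k := cg m1
    rw [m2, sm, Matrix.mul_smul, Matrix.smul_mul, r1, smul_smul, smul_smul] at k
    exact (mul_right_cancel₀ t0 ((cc (hm r d1) k).trans (mul_comm _ _))).symm
  have m6 : r M.det = M.det := by
    have k := congrArg det m1
    rw [det_mul, det_mul, m3_det_map, du, mul_comm] at k
    exact (mul_left_cancel₀ hu k).symm
  refine ⟨(μ * k / M.det) • M, by simp [μ0, k0, m0], ?_, ?_⟩
  · rw [sm, Matrix.smul_mul, m1, Matrix.mul_smul, map_div₀, map_mul, μ2, rk, m6]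
  · rw [sm, transpose_smul, Matrix.smul_mul, Matrix.smul_mul, Matrix.mul_smul, m2, smul_smul,
      smul_smul, map_div₀, map_mul, μ1, sk]
    convert one_smul F G₁
    have := (_root_.map_ne_zero σ).2 m0
    field_simp
    linear_combination -m4

end Vale.Agent.P011N.Cl.B2
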